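import Vale.Agent.P181.MR.Defs
import Vale.Agent.P181.H19.Gt

set_option autoImplicit false

/-!
# P181, MR, row HALF: taking off at most half of the gap after row `R`
-/

namespace Vale.Agent.P181.MR.H312

open Finset
open Vale.Agent.P181.H463 (gt)
open Vale.Agent.P181.H19

lemma pad_mu {m R E : ℕ} {mu eta : Fin m → ℕ} (hR : R ≤ m)
    (hmu : ∀ i, mu i = eta i + if (i : ℕ) < R then E else 0) (k : ℕ) :
    pad mu k = pad eta k + if k < R then E else 0 := by
  unfold pad
  by_cases hk : k < m
  · rw [dif_pos hk, dif_pos hk, hmu]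
  · rw [dif_neg hk, dif_neg hk, if_neg (by omega)]

/-- **[HALF]** -/
theorem half : HalfM := by
  intro m R a E mu eta hanti hRm hma hmu hgap
  have hmuA : Antitone mu := by
    intro i j hij
    have h1 := hanti hij
    have hij' : (i : ℕ) ≤ j := hij
    rw [hmu i, hmu j]
    by_cases hj : (j : ℕ) < R
    · rw [if_pos hj, if_pos (by omega)]
      omega
    · rw [if_neg hj]
      omega
  have h1 := gt_prod hma mu hmuA
  have h2 := gt_prod hma eta hanti
  -- one factor
  have hfac : ∀ i : Fin a, ∀ j ∈ Ioi i, (0 : ℤ) ≤ (seqx mu a j : ℤ) - seqx mu a i ∧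
      (0 : ℤ) ≤ (seqx eta a j : ℤ) - seqx eta a i ∧
      (seqx mu a j : ℤ) - seqx mu a i ≤
        (if a - 1 - (j : ℕ) < R then 2 else 1) * ((seqx eta a j : ℤ) - seqx eta a i) := by
    intro i j hj
    rw [mem_Ioi, Fin.lt_def] at hj
    have hja := j.2
    have hm1 := seqx_mono hmuA a (show i ≤ j from Fin.le_def.2 hj.le)
    have hm2 := seqx_mono hanti a (show i ≤ j from Fin.le_def.2 hj.le)
    refine ⟨by omega, by omega, ?_⟩
    unfold seqx at hm1 hm2 ⊢
    rw [pad_mu hRm hmu, pad_mu hRm hmu] at *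
    push_cast
    by_cases hjR : a - 1 - (j : ℕ) < R
    · rw [if_pos hjR, if_pos hjR]
      by_cases hiR : a - 1 - (i : ℕ) < R
      · rw [if_pos hiR]
        push_cast
        rw [if_pos hjR, if_pos hiR] at hm1
        omega
      · rw [if_neg hiR]
        have hjm : a - 1 - (j : ℕ) < m := by omega
        have h3 := hgap ⟨a - 1 - (j : ℕ), hjm⟩ hjR
        have h4 : E + pad eta (a - 1 - (i : ℕ)) ≤ pad eta (a - 1 - (j : ℕ)) := by
          by_cases him : a - 1 - (i : ℕ) < m
          · have h5 := h3.2 ⟨a - 1 - (i : ℕ), him⟩ (by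
              change R ≤ a - 1 - (i : ℕ)
              omega)
            unfold pad
            rw [dif_pos him, dif_pos hjm]
            exact h5
          · unfold pad
            rw [dif_neg him, dif_pos hjm]
            exact h3.1
        push_cast
        omega
    · rw [if_neg hjR, if_neg hjR, if_neg (by omega)]
      push_cast
      omega
  -- one row
  have hrow : ∀ i : Fin a, ∏ j ∈ Ioi i, ((seqx mu a j : ℤ) - seqx mu a i) ≤
      2 ^ R * ∏ j ∈ Ioi i, ((seqx eta a j : ℤ) - seqx eta a i) := by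
    intro i
    have h3 : ∏ j ∈ Ioi i, ((seqx mu a j : ℤ) - seqx mu a i) ≤
        ∏ j ∈ Ioi i, ((if a - 1 - (j : ℕ) < R then 2 else 1) *
          ((seqx eta a j : ℤ) - seqx eta a i)) :=
      prod_le_prod (fun j hj => (hfac i j hj).1) (fun j hj => (hfac i j hj).2.2)
    refine h3.trans ?_
    rw [prod_mul_distrib]
    apply mul_le_mul_of_nonneg_right _ (prod_nonneg (fun j hj => (hfac i j hj).2.1))
    rw [prod_ite, prod_const_one, mul_one, prod_const]
    apply pow_le_pow_right₀ (by norm_num)
    have h4 : (filter (fun j : Fin a => a - 1 - (j : ℕ) < R) (Ioi i)).card ≤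
        (range R).card := by
      apply card_le_card_of_injOn (fun j : Fin a => a - 1 - (j : ℕ))
      · intro j hj
        simp only [coe_filter, Set.mem_setOf_eq] at hj
        simp only [coe_range, Set.mem_Iio]
        exact hj.2
      · intro j _ j' _ h
        have hj1 := j.2
        have hj2 := j'.2
        apply Fin.ext
        simp only at h
        omega
    rwa [card_range] at h4
  have hnn : ∀ i : Fin a, (0 : ℤ) ≤ ∏ j ∈ Ioi i, ((seqx mu a j : ℤ) - seqx mu a i) :=
    fun i => prod_nonneg (fun j hj => (hfac i j hj).1)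
  have key : ∏ i : Fin a, ∏ j ∈ Ioi i, ((seqx mu a j : ℤ) - seqx mu a i) ≤
      2 ^ (R * a) * ∏ i : Fin a, ∏ j ∈ Ioi i, ((seqx eta a j : ℤ) - seqx eta a i) := by
    refine (prod_le_prod (fun i _ => hnn i) (fun i _ => hrow i)).trans ?_
    rw [prod_mul_distrib, prod_const, card_univ, Fintype.card_fin, ← pow_mul]
  have hP : (0 : ℤ) < ∏ i : Fin a, ((i : ℕ).factorial : ℤ) :=
    prod_pos (fun i _ => by exact_mod_cast Nat.factorial_pos _)
  rw [← h1, ← h2, ← mul_assoc] at key
  have h5 := le_of_mul_le_mul_right key hP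
  exact_mod_cast h5

end Vale.Agent.P181.MR.H312
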